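import Mathlib

/-!
# P022: the absolute Galois group of `ℚ_p` and a decomposition group at `p`
-/

open NumberField IsDedekindDomain

noncomputable section

namespace Vale.Agent.P022D.Loc2

theorem algQ : Algebra.IsAlgebraic ℚ (AlgebraicClosure ℚ) := AlgebraicClosure.isAlgebraic ℚ

theorem clQ : IsAlgClosure ℚ (AlgebraicClosure ℚ) := ⟨inferInstance, algQ⟩

theorem galQ : IsGalois ℚ (AlgebraicClosure ℚ) :=
  haveI := clQ
  IsAlgClosure.isGalois ℚ (AlgebraicClosure ℚ)

variable (p : ℕ) [hp : Fact p.Prime]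

/-- an embedding of the algebraic numbers -/
def io : AlgebraicClosure ℚ →ₐ[ℚ] PadicAlgCl p :=
  haveI := algQ
  IsAlgClosed.lift

theorem ex_res (σ : Gal(PadicAlgCl p / ℚ_[p])) :
    ∃ g : Gal(AlgebraicClosure ℚ / ℚ), ∀ x, io p (g x) = σ (io p x) := by
  have := galQ
  let _ : Algebra (AlgebraicClosure ℚ) (PadicAlgCl p) := (io p).toRingHom.toAlgebra
  have : IsScalarTower ℚ (AlgebraicClosure ℚ) (PadicAlgCl p) :=
    IsScalarTower.of_algebraMap_eq fun x => ((io p).commutes x).symm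
  exact ⟨(σ.restrictScalars ℚ).restrictNormal (AlgebraicClosure ℚ),
    fun x => AlgEquiv.restrictNormal_commutes (σ.restrictScalars ℚ) (AlgebraicClosure ℚ) x⟩

theorem io_inj : Function.Injective (io p) := (io p).toRingHom.injective

/-- the restriction map -/
def jj : Gal(PadicAlgCl p / ℚ_[p]) →* Gal(AlgebraicClosure ℚ / ℚ) :=
  MonoidHom.mk' (fun σ => (ex_res p σ).choose) fun σ τ => AlgEquiv.ext fun x => io_inj p (by
    rw [(ex_res p (σ * τ)).choose_spec, AlgEquiv.mul_apply, AlgEquiv.mul_apply,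
      (ex_res p σ).choose_spec, (ex_res p τ).choose_spec])

theorem io_jj (σ : Gal(PadicAlgCl p / ℚ_[p])) (x : AlgebraicClosure ℚ) :
    io p (jj p σ x) = σ (io p x) := (ex_res p σ).choose_spec x

theorem jj_cont : Continuous (jj p) := by
  refine continuous_of_continuousAt_one (jj p) ?_
  rw [ContinuousAt, map_one]
  intro s hs
  obtain ⟨E, hE, hEs⟩ := (krullTopology_mem_nhds_one_iff ℚ (AlgebraicClosure ℚ) s).1 hs
  let b := Module.finBasis ℚ E
  let L : IntermediateField ℚ_[p] (PadicAlgCl p) :=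
    IntermediateField.adjoin ℚ_[p] (Set.range fun i => io p (b i))
  have hL : FiniteDimensional ℚ_[p] L :=
    IntermediateField.finiteDimensional_adjoin fun x _ => Algebra.IsIntegral.isIntegral x
  rw [Filter.mem_map]
  refine (krullTopology_mem_nhds_one_iff ℚ_[p] (PadicAlgCl p) _).2 ⟨L, hL, fun σ hσ => hEs ?_⟩
  rw [SetLike.mem_coe, IntermediateField.mem_fixingSubgroup_iff] at hσ ⊢
  intro x hx
  have h1 : ∀ i, jj p σ (b i) = b i := fun i => io_inj p (by
    rw [io_jj]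
    exact hσ _ (IntermediateField.subset_adjoin _ _ ⟨i, rfl⟩))
  have h2 : x = ∑ i, b.repr ⟨x, hx⟩ i • (b i : AlgebraicClosure ℚ) := by
    have h3 := congrArg (E.val : E → AlgebraicClosure ℚ) (b.sum_repr ⟨x, hx⟩)
    rw [map_sum] at h3
    refine h3.symm.trans (Finset.sum_congr rfl fun i _ => ?_)
    exact map_rat_smul E.val _ _
  rw [h2, map_sum]
  refine Finset.sum_congr rfl fun i _ => ?_
  rw [map_rat_smul, h1]

theorem norm_int (x : 𝓞 (AlgebraicClosure ℚ)) : ‖io p x‖ ≤ 1 := by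
  have h1 : IsIntegral ℤ (io p x) := x.isIntegral_coe.map (io p).toRingHom.toIntAlgHom
  by_contra hcon
  have h2 : 1 < ‖io p x‖ := not_le.1 hcon
  obtain ⟨f, hf, hfx⟩ := h1
  rw [hf.as_sum, Polynomial.eval₂_add, Polynomial.eval₂_X_pow, Polynomial.eval₂_finsetSum] at hfx
  have h3 : io p x ^ f.natDegree = -∑ i ∈ Finset.range f.natDegree,
      Polynomial.eval₂ (algebraMap ℤ (PadicAlgCl p)) (io p x)
        (Polynomial.C (f.coeff i) * Polynomial.X ^ i) := eq_neg_of_add_eq_zero_left hfx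
  have h4 : ‖io p x‖ ^ f.natDegree < ‖io p x‖ ^ f.natDegree := by
    conv_lhs => rw [← norm_pow, h3, norm_neg]
    rcases Nat.eq_zero_or_pos f.natDegree with h0 | h0
    · rw [h0]; simp
    · refine lt_of_le_of_lt (IsUltrametricDist.norm_sum_le_of_forall_le_of_nonneg
        (C := ‖io p x‖ ^ (f.natDegree - 1)) (by positivity) fun i hi => ?_)
        (pow_lt_pow_right₀ h2 (by omega))
      rw [Polynomial.eval₂_mul, Polynomial.eval₂_C, Polynomial.eval₂_X_pow, norm_mul, norm_pow]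
      have h5 : ‖algebraMap ℤ (PadicAlgCl p) (f.coeff i)‖ ≤ 1 :=
        IsUltrametricDist.norm_intCast_le_one _ _
      have h6 : i ≤ f.natDegree - 1 := by
        have := Finset.mem_range.1 hi
        omega
      calc _ ≤ 1 * ‖io p x‖ ^ i := by gcongr
        _ ≤ _ := by rw [one_mul]; exact pow_le_pow_right₀ h2.le h6
  exact lt_irrefl _ h4

/-- the prime defined by the embedding -/
def PP : Ideal (𝓞 (AlgebraicClosure ℚ)) where
  carrier := {x | ‖io p x‖ < 1}
  zero_mem' := by simp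
  add_mem' {a b} ha hb := by
    change ‖io p ((a : AlgebraicClosure ℚ) + b)‖ < 1
    rw [map_add]
    exact lt_of_le_of_lt (IsUltrametricDist.norm_add_le_max _ _) (max_lt ha hb)
  smul_mem' c a ha := by
    change ‖io p ((c : AlgebraicClosure ℚ) * a)‖ < 1
    rw [map_mul, norm_mul]
    exact mul_lt_one_of_nonneg_of_lt_one_right (norm_int p c) (norm_nonneg _) ha

theorem mem_PP {x : 𝓞 (AlgebraicClosure ℚ)} : x ∈ PP p ↔ ‖io p x‖ < 1 := Iff.rfl

theorem PP_prime : (PP p).IsPrime := by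
  refine ⟨fun h => ?_, fun {a b} hab => ?_⟩
  · have h1 : (1 : 𝓞 (AlgebraicClosure ℚ)) ∈ PP p := h ▸ Submodule.mem_top
    rw [mem_PP] at h1
    simp at h1
  · by_contra hcon
    rw [not_or, mem_PP, mem_PP, not_lt, not_lt] at hcon
    rw [mem_PP] at hab
    have h1 : ‖io p ((a : AlgebraicClosure ℚ) * b)‖ < 1 := hab
    rw [map_mul, norm_mul] at h1
    exact absurd h1 (not_lt.2 (one_le_mul_of_one_le_of_one_le hcon.1 hcon.2))

theorem norm_p : ‖(p : PadicAlgCl p)‖ = (p : ℝ)⁻¹ := by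
  have h := PadicAlgCl.norm_extends p (p : ℚ_[p])
  rw [Padic.norm_p] at h
  rw [← h, map_natCast]

theorem p_mem_PP : (p : 𝓞 (AlgebraicClosure ℚ)) ∈ PP p := by
  rw [mem_PP]
  have h1 : io p ((p : 𝓞 (AlgebraicClosure ℚ)) : AlgebraicClosure ℚ) = p := by simp
  rw [h1, norm_p]
  exact inv_lt_one_of_one_lt₀ (by exact_mod_cast hp.out.one_lt)

theorem frac (x : AlgebraicClosure ℚ) (hx : ‖io p x‖ < 1) :
    ∃ n d : 𝓞 (AlgebraicClosure ℚ), n ∈ PP p ∧ d ∉ PP p ∧ x * d = n := by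
  have := algQ
  let L : IntermediateField ℚ (AlgebraicClosure ℚ) := IntermediateField.adjoin ℚ {x}
  have hL : FiniteDimensional ℚ L :=
    IntermediateField.adjoin.finiteDimensional (Algebra.IsIntegral.isIntegral x)
  have hN : NumberField L := {}
  let f : 𝓞 L →+* 𝓞 (AlgebraicClosure ℚ) := RingOfIntegers.mapRingHom L.val.toRingHom
  have hpr := PP_prime p
  let v : HeightOneSpectrum (𝓞 L) := ⟨(PP p).comap f, Ideal.comap_isPrime _ _, fun h => by
    have h1 : (p : 𝓞 L) ∈ (PP p).comap f := by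
      rw [Ideal.mem_comap, map_natCast]
      exact p_mem_PP p
    rw [h, Ideal.mem_bot] at h1
    exact hp.out.ne_zero (by exact_mod_cast h1)⟩
  obtain ⟨n, d, h⟩ := v.exists_primeCompl_mul_eq_or_mul_eq
    (K := L) ⟨x, IntermediateField.mem_adjoin_simple_self ℚ x⟩
  have hd : f d ∉ PP p := d.2
  rcases h with h | h
  · have h1 : x * f d = f n := congrArg L.val h
    refine ⟨f n, f d, ?_, hd, h1⟩
    rw [mem_PP, ← h1, map_mul, norm_mul]
    exact mul_lt_one_of_nonneg_of_lt_one_left (norm_nonneg _) hx (norm_int p _)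
  · have h1 : x * f n = f d := congrArg L.val h
    refine absurd ?_ hd
    rw [mem_PP, ← h1, map_mul, norm_mul]
    exact mul_lt_one_of_nonneg_of_lt_one_left (norm_nonneg _) hx (norm_int p _)

theorem norm_lt (g : Gal(AlgebraicClosure ℚ / ℚ))
    (hg : ∀ x : 𝓞 (AlgebraicClosure ℚ), g • x ∈ PP p ↔ x ∈ PP p) (x : AlgebraicClosure ℚ)
    (hx : ‖io p x‖ < 1) : ‖io p (g x)‖ < 1 := by
  obtain ⟨n, d, hn, hd, h⟩ := frac p x hx
  have h1 : ‖io p (g n)‖ < 1 := (hg n).2 hn
  have h2 : 1 ≤ ‖io p (g d)‖ := not_lt.1 fun h3 => hd ((hg d).1 h3)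
  rw [← h, map_mul, map_mul, norm_mul] at h1
  exact lt_of_le_of_lt (le_mul_of_one_le_right (norm_nonneg _) h2) h1

theorem fix (g : Gal(AlgebraicClosure ℚ / ℚ))
    (hg : ∀ x : 𝓞 (AlgebraicClosure ℚ), g • x ∈ PP p ↔ x ∈ PP p) (z : AlgebraicClosure ℚ)
    (a : ℚ_[p]) (ha : algebraMap ℚ_[p] (PadicAlgCl p) a = io p z) : g z = z := by
  have hp1 : (1 : ℝ) < p := by exact_mod_cast hp.out.one_lt
  have hp0 : (p : AlgebraicClosure ℚ) ≠ 0 := by exact_mod_cast hp.out.ne_zero
  have key : ∀ n : ℕ, ‖io p (g z) - io p z‖ < ((p : ℝ)⁻¹) ^ n := by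
    intro n
    have hpos : 0 < ((p : ℝ)⁻¹) ^ n := by positivity
    obtain ⟨q, hq⟩ := Padic.rat_dense p a hpos
    have h1 : ‖io p z - q‖ < ((p : ℝ)⁻¹) ^ n := by
      rw [← ha, ← map_ratCast (algebraMap ℚ_[p] (PadicAlgCl p)), ← map_sub]
      exact (PadicAlgCl.norm_extends p _).trans_lt hq
    have h2 : ∀ y : AlgebraicClosure ℚ, ‖io p ((y - q) / p ^ n)‖ < 1 ↔
        ‖io p y - q‖ < ((p : ℝ)⁻¹) ^ n := by
      intro y
      rw [map_div₀, map_sub, map_ratCast, map_pow, map_natCast, norm_div, norm_pow, norm_p,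
        div_lt_one hpos]
    have h3 := norm_lt p g hg _ ((h2 z).2 h1)
    rw [map_div₀, map_sub, map_ratCast, map_pow, map_natCast, h2] at h3
    have h4 : io p (g z) - io p z = (io p (g z) - q) + -(io p z - q) := by ring
    rw [h4]
    exact lt_of_le_of_lt (IsUltrametricDist.norm_add_le_max _ _)
      (max_lt h3 (by rw [norm_neg]; exact h1))
  by_contra hne
  have h1 : 0 < ‖io p (g z) - io p z‖ :=
    norm_pos_iff.2 (sub_ne_zero.2 fun h => hne (io_inj p h))
  obtain ⟨n, hn⟩ := exists_pow_lt_of_lt_one h1 (inv_lt_one_of_one_lt₀ hp1)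
  exact lt_asymm hn (key n)

/-- The image of the local Galois group is the decomposition group. -/
theorem range_jj (g : Gal(AlgebraicClosure ℚ / ℚ)) :
    (∀ x : 𝓞 (AlgebraicClosure ℚ), g • x ∈ PP p ↔ x ∈ PP p) ↔ ∃ σ, jj p σ = g := by
  constructor
  · intro hg
    have := galQ
    let H : ClosedSubgroup Gal(AlgebraicClosure ℚ / ℚ) :=
      ⟨(jj p).range, (isCompact_range (jj_cont p)).isClosed⟩
    have h1 := InfiniteGalois.fixingSubgroup_fixedField H
    have h2 : g ∈ (IntermediateField.fixedField H.1).fixingSubgroup := by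
      rw [IntermediateField.mem_fixingSubgroup_iff]
      intro z hz
      obtain ⟨a, ha⟩ := (InfiniteGalois.mem_range_algebraMap_iff_fixed (k := ℚ_[p])
        (io p z)).2 fun σ => by
          rw [← io_jj]
          exact congrArg (io p) (hz ⟨jj p σ, σ, rfl⟩)
      exact fix p g hg z a ha
    rw [h1] at h2
    exact h2
  · rintro ⟨σ, rfl⟩ x
    have h1 : ‖io p (jj p σ x)‖ = ‖io p x‖ := by
      rw [io_jj]
      exact (spectralNorm_eq_of_equiv σ (io p x)).symm
    rw [mem_PP, mem_PP, ← h1]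
    rfl

end Vale.Agent.P022D.Loc2
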