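import Vale.Agent.P022D.Loc2.Uni
import Vale.Agent.P022D.Loc2.Dec
import Vale.Agent.P022D.R.Defs

/-!
# P022: the blocks at two and at infinity for framed test objects
-/

open IsLocalRing MvPowerSeries NumberField

noncomputable section

namespace Vale.Agent.P022D.Loc2

open Vale.Agent.P022 Vale.Agent.P022.C
open Vale.Agent.P027M.S (mx)
open Vale.Agent.P022D.Sel (Stab)
open Vale.Agent.P022D.R

variable {O F : Type} [CommRing O] [Field F]

/-- the determinant is `δ` on `Dl` -/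
def DetOn (S : Dat O F) (Dl : Set GQ) (δ : GQ → O) : Cl S :=
  fun _ _ X => ∀ g ∈ Dl, (X.ρ g).det = X.ι (δ g)

/-- a block of coordinates `κ` and equations `f` of relative dimension `k` at the place `l`, for
the objects which satisfy `cond` -/
structure GoodBlk (S : Dat O F) (l : ℕ) (Dl : Set GQ) (cond : Cl S) (k : ℕ) {τ ι : Type}
    [Fintype τ] [Fintype ι] (f : ι → MvPowerSeries τ O) (κ : Crd S τ) : Prop where
  card : Fintype.card τ = Fintype.card ι + k
  const : ∀ i, S.red (constantCoeff (f i)) = 0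
  blk : CA.BlkPt fun i => MvPowerSeries.map S.red (f i)
  nat : ∀ (A B : Type) [CommRing A] [CommRing B] (X : Obj S A) (Y : Obj S B) (u : A →+* B),
    Hom X Y u → ∀ t, u (κ A X t) = κ B Y t
  res : ∀ (A : Type) [CommRing A] (X : Obj S A) (t : τ), X.π (κ A X t) = 0
  tan : ∀ Y : Obj S (DualNumber F), (∀ a, Y.π a = a.fst) →
    (∀ c, Y.ι c = TrivSqZeroExt.inl (S.red c)) → cond _ Y → (∀ t, κ _ Y t = 0) →
    ∀ g ∈ Dl, Y.β l * Y.ρ g * Y.α l = (mx S.rb g).map TrivSqZeroExt.inl
  van : ∀ (A : Type) [CommRing A] (X : Obj S A), cond A X → ∀ φ : MvPowerSeries τ O →+* A,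
    (∀ c, φ (C c) = X.ι c) → (∀ t, φ (MvPowerSeries.X t) = κ A X t) → ∀ i, φ (f i) = 0

variable {S : Dat O F} {A B : Type} [CommRing A] [CommRing B]

theorem beta_map {X : Obj S A} {Y : Obj S B} {u : A →+* B} (h : Hom X Y u) (l : ℕ) :
    (X.β l).map u = Y.β l := by
  have h1 : Y.α l * (X.β l).map u = 1 := by
    rw [← h.α, ← Matrix.map_mul, X.inv, Matrix.map_one _ (map_zero _) (map_one _)]
  calc (X.β l).map u = (Y.β l * Y.α l) * (X.β l).map u := by
        rw [mul_eq_one_comm.1 (Y.inv l), one_mul]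
    _ = Y.β l := by rw [Matrix.mul_assoc, h1, mul_one]

theorem beta_res (X : Obj S A) (l : ℕ) : (X.β l).map X.π = 1 := by
  have h1 : (X.α l).map X.π * (X.β l).map X.π = 1 := by
    rw [← Matrix.map_mul, X.inv, Matrix.map_one _ (map_zero _) (map_one _)]
  rwa [X.one, one_mul] at h1

theorem nil_of_res (X : Obj S A) {a : A} (h : X.π a = 0) : IsNilpotent a := by
  have := X.fin
  obtain ⟨m, n, hmn, e⟩ := Finite.exists_ne_map_eq_of_infinite fun n : ℕ => a ^ n
  wlog hlt : m < n generalizing m n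
  · exact this n m hmn.symm e.symm (by omega)
  obtain ⟨k, rfl⟩ := Nat.exists_eq_add_of_lt hlt
  have hu : IsUnit (1 - a ^ (k + 1)) := X.loc _ (by simp [h])
  refine ⟨m, hu.mul_left_cancel ?_⟩
  have e' : a ^ m = a ^ (m + k + 1) := e
  rw [mul_zero]
  linear_combination e'

/-- the local representation of an object -/
def lr {G : Type} [Group G] (j : G →* GQ) (X : Obj S A) (l : ℕ) : G →* L2b.M2 A :=
  (cj (X.α l) (X.β l) (X.inv l)).comp (X.ρ.comp j)

theorem lr_apply {G : Type} [Group G] (j : G →* GQ) (X : Obj S A) (l : ℕ) (x : G) :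
    lr j X l x = X.β l * X.ρ (j x) * X.α l := rfl

/-- the residual local representation -/
def lb {G : Type} [Group G] (j : G →* GQ) (rb : GQ →* GL (Fin 2) F) : G →* L2b.M2 F :=
  (Units.coeHom _).comp (rb.comp j)

theorem lc_of_open {G M : Type} [Group G] [TopologicalSpace G] [IsTopologicalGroup G] [Monoid M]
    (ρ : G →* M) (h : IsOpen {g | ρ g = 1}) : IsLocallyConstant ρ := by
  rw [IsLocallyConstant.iff_eventually_eq]
  intro x
  have h1 : IsOpen ((fun y => x⁻¹ * y) ⁻¹' {g | ρ g = 1}) :=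
    h.preimage (continuous_const.mul continuous_id)
  filter_upwards [h1.mem_nhds (x := x) (by
    rw [Set.mem_preimage, inv_mul_cancel]; exact map_one ρ)] with y hy
  have h2 : ρ (x⁻¹ * y) = 1 := hy
  calc ρ y = ρ (x * (x⁻¹ * y)) := by rw [mul_inv_cancel_left]
    _ = ρ x := by rw [map_mul, h2, mul_one]

theorem lr_res {G : Type} [Group G] (j : G →* GQ) (X : Obj S A) (l : ℕ) (x : G) :
    (lr j X l x).map X.π = lb j S.rb x := by
  rw [lr_apply, Matrix.map_mul, Matrix.map_mul, beta_res, X.one, X.res, one_mul, mul_one]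
  rfl

theorem lr_det {G : Type} [Group G] (j : G →* GQ) (X : Obj S A) (l : ℕ) (x : G) :
    (lr j X l x).det = (X.ρ (j x)).det := by
  have h := congrArg Matrix.det (X.inv l)
  rw [Matrix.det_mul, Matrix.det_one] at h
  rw [lr_apply, Matrix.det_mul, Matrix.det_mul]
  linear_combination (X.ρ (j x)).det * h

theorem good_of_out [IsLocalRing O] {G : Type} [Group G] [TopologicalSpace G] (j : G →* GQ)
    (hj : Continuous j) (l : ℕ) (Dl : Set GQ) (hD : ∀ g, g ∈ Dl ↔ ∃ x, j x = g) (δ : GQ → O)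
    (k : ℕ) (s : F → O) (hs : ∀ x, S.red (s x) = x)
    (h : letI := S.red.toAlgebra; OutG (lb j S.rb) s (fun x => δ (j x)) k) :
    ∃ (τ ι : Type) (_ : Fintype τ) (_ : Fintype ι) (f : ι → MvPowerSeries τ O) (κ : Crd S τ),
      GoodBlk S l Dl (DetOn S Dl δ) k f κ := by
  let _ := S.red.toAlgebra
  obtain ⟨τ, ι, _, _, g, p, q, f, h1, h2, h3, h4, h5⟩ := h
  have hres : ∀ (A : Type) [CommRing A] (X : Obj S A) (x : G) (a b : Fin 2),
      X.π (lr j X l x a b - X.ι (s (lb j S.rb x a b))) = 0 := by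
    intro A _ X x a b
    rw [map_sub, X.alg, hs, ← lr_res j X l x, Matrix.map_apply, sub_self]
  have hlc : ∀ (A : Type) [CommRing A] (X : Obj S A), IsLocallyConstant (lr j X l) :=
    fun A _ X => ((lc_of_open X.ρ X.opn).comp_continuous hj).comp
      (cj (X.α l) (X.β l) (X.inv l))
  refine ⟨τ, ι, inferInstance, inferInstance, f,
    fun A _ X t => lr j X l (g t) (p t) (q t) - X.ι (s (lb j S.rb (g t) (p t) (q t))),
    h1, fun i => red_zero hs ((CA.Cpl.mem_max_iff _).1 (h2 i)), h3, ?_,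
    fun A _ X t => hres A X _ _ _, ?_, ?_⟩
  · intro A B _ _ X Y u hu t
    have h6 : (lr j X l (g t)).map u = lr j Y l (g t) := by
      rw [lr_apply, Matrix.map_mul, Matrix.map_mul, beta_map hu, hu.ρ, hu.α, lr_apply]
    rw [map_sub, hu.ι, ← h6, Matrix.map_apply]
  · intro Y hπ hι hc h0 γ hγ
    obtain ⟨x, rfl⟩ := (hD γ).1 hγ
    have hf : ∀ y a b, (lr j Y l y a b).fst = lb j S.rb y a b := fun y a b => by
      rw [← hπ, ← lr_res j Y l y, Matrix.map_apply]
    have hz : L2b.Z1 (lb j S.rb) fun y => (lr j Y l y).map TrivSqZeroExt.snd := by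
      refine ⟨(hlc _ Y).comp fun M : L2b.M2 (DualNumber F) => M.map TrivSqZeroExt.snd,
        fun y z => ?_, fun y => ?_⟩
      · ext a b
        simp only [map_mul (lr j Y l), Matrix.map_apply, Matrix.mul_apply, Matrix.add_apply,
          Fin.sum_univ_two, TrivSqZeroExt.snd_add, DualNumber.snd_mul, hf]
        ring
      · have h6 := congrArg TrivSqZeroExt.snd
          ((lr_det j Y l y).trans ((hc (j y) ((hD _).2 ⟨y, rfl⟩)).trans (hι _)))
        simp only [Matrix.det_fin_two, TrivSqZeroExt.snd_sub, DualNumber.snd_mul, hf,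
          TrivSqZeroExt.snd_inl] at h6
        simp only [L2b.pd, Matrix.map_apply]
        linear_combination h6
    have h7 := h4 _ hz (fun t => by
      have h8 := congrArg TrivSqZeroExt.snd (h0 t)
      rw [hι, TrivSqZeroExt.snd_sub, TrivSqZeroExt.snd_inl, sub_zero] at h8
      exact h8) x
    refine Matrix.ext fun a b => ?_
    exact TrivSqZeroExt.ext (hf x a b) (congrFun (congrFun h7 a) b)
  · intro A _ X hc φ hC hX
    let _ := X.ι.toAlgebra
    have := X.fin
    have hL : L2b.Lift (lb j S.rb) s (fun x => δ (j x)) (lr j X l) :=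
      ⟨hlc A X, fun a ha => nil_of_res X ((X.alg a).trans (red_zero hs ha)),
        fun x a b => nil_of_res X (hres A X x a b),
        fun x => (lr_det j X l x).trans (hc _ ((hD _).2 ⟨x, rfl⟩))⟩
    exact (h5 A (lr j X l) hL).2 ⟨φ, hC⟩ hX

/-- the block at two -/
theorem good2 (h2 : Two2) [Finite F] [CharP F 2] [IsLocalRing O] [IsNoetherianRing O]
    [IsAdicComplete (maximalIdeal O) O] (S : Dat O F) (ho : IsOpen {g | S.rb g = 1})
    (hx : ∀ g, (mx S.rb g 0 1 = 0 ∧ mx S.rb g 1 0 = 0) ∨ (mx S.rb g 0 0 = 0 ∧ mx S.rb g 1 1 = 0))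
    (hdet : ∀ g, (mx S.rb g).det = 1) (δ : GQ → O)
    (hδ : ∀ g, Stab (PP 2) g → S.red (δ g) = 1) :
    ∃ (τ ι : Type) (_ : Fintype τ) (_ : Fintype ι) (f : ι → MvPowerSeries τ O) (κ : Crd S τ),
      GoodBlk S 2 {g | Stab (PP 2) g} (DetOn S {g | Stab (PP 2) g} δ) 6 f κ := by
  let _ := S.red.toAlgebra
  refine good_of_out (jj 2) (jj_cont 2) 2 _ (range_jj 2) δ 6 (Function.surjInv S.surj)
    (Function.surjInv_eq S.surj) ?_
  exact h2 F O (lb (jj 2) S.rb) _ _
    (((lc_of_open S.rb ho).comp_continuous (jj_cont 2)).comp (Units.coeHom _))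
    (fun x => hx _) (fun x => hdet _) (Function.surjInv_eq S.surj)
    (fun x => hδ _ ((range_jj 2 _).2 ⟨x, rfl⟩))

theorem isDec2 : Sel.IsDec 2 {g | Stab (PP 2) g} :=
  Or.inr ⟨Nat.prime_two, PP 2, PP_prime 2, p_mem_PP 2, rfl⟩

/-- the block at infinity -/
theorem goodInf [CharP F 2] [IsLocalRing O] (S : Dat O F) (c : GQ) (hc : c * c = 1)
    (hdet : (mx S.rb c).det = 1) (δ : GQ → O) (hδ : δ c = -1) :
    ∃ (τ ι : Type) (_ : Fintype τ) (_ : Fintype ι) (f : ι → MvPowerSeries τ O) (κ : Crd S τ),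
      GoodBlk S 0 {1, c} (DetOn S {1, c} δ) 2 f κ := by
  let _ := S.red.toAlgebra
  let H : Subgroup GQ :=
    { carrier := {1, c}
      one_mem' := Or.inl rfl
      mul_mem' := by
        rintro a b (rfl | rfl) (rfl | rfl)
        · exact Or.inl (mul_one _)
        · exact Or.inr (one_mul _)
        · exact Or.inr (mul_one _)
        · exact Or.inl hc
      inv_mem' := by
        rintro a (rfl | rfl)
        · exact Or.inl inv_one
        · exact Or.inr (inv_eq_of_mul_eq_one_right hc) }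
  refine good_of_out H.subtype continuous_subtype_val 0 _
    (fun g => ⟨fun hg => ⟨⟨g, hg⟩, rfl⟩, fun ⟨x, hx⟩ => hx ▸ x.2⟩) δ 2
    (Function.surjInv S.surj) (Function.surjInv_eq S.surj) ?_
  refine inf2 H F O (lb H.subtype S.rb) _ _ ⟨c, Or.inr rfl⟩ ?_ (Subtype.ext hc) hdet hδ
    (Function.surjInv_eq S.surj)
  rintro ⟨x, rfl | rfl⟩
  · exact Or.inl rfl
  · exact Or.inr rfl

theorem conj_sq {c : GQ} (h : IsConj c) : c * c = 1 := by
  obtain ⟨φ, hφ⟩ := h
  ext x
  apply φ.injective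
  rw [AlgEquiv.mul_apply, hφ, hφ, Complex.conj_conj]
  rfl

end Vale.Agent.P022D.Loc2
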