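import Vale.Agent.P022D.L2b.Defs

/-!
# P022: the uniform output of a local block with fixed determinant
-/

noncomputable section

namespace Vale.Agent.P022D.Loc2

open IsLocalRing L2b

variable {G F : Type} [Group G] [TopologicalSpace G] [Field F]

/-- the matrix entries `(g t, p t, q t)` determine a first order deformation -/
def TnG (r : G →* M2 F) {τ : Type} (g : τ → G) (p q : τ → Fin 2) : Prop :=
  ∀ c, Z1 r c → (∀ t, c (g t) (p t) (q t) = 0) → ∀ x, c x = 0

variable {O : Type} [CommRing O] [IsLocalRing O]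

/-- the coordinates of a lift -/
def coG (r : G →* M2 F) (s : F → O) {τ : Type} (g : τ → G) (p q : τ → Fin 2) {A : Type}
    [CommRing A] [Algebra O A] (ρ : G →* M2 A) (t : τ) : A :=
  ρ (g t) (p t) (q t) - algebraMap O A (s (r (g t) (p t) (q t)))

/-- **output of a block of relative dimension `k`** -/
def OutG [Algebra O F] (r : G →* M2 F) (s : F → O) (d : G → O) (k : ℕ) : Prop :=
  ∃ (τ ι : Type) (_ : Fintype τ) (_ : Fintype ι) (g : τ → G) (p q : τ → Fin 2)
    (f : ι → MvPowerSeries τ O), Fintype.card τ = Fintype.card ι + k ∧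
    (∀ i, f i ∈ maximalIdeal (MvPowerSeries τ O)) ∧
    CA.BlkPt (fun i => MvPowerSeries.map (algebraMap O F) (f i)) ∧ TnG r g p q ∧
    ∀ (A : Type) [CommRing A] [Algebra O A] [Finite A] (ρ : G →* M2 A), Lift r s d ρ →
      (∀ x i j, ρ x i j ∈ Algebra.adjoin O (Set.range (coG r s g p q ρ))) ∧
      ∀ φ : MvPowerSeries τ O →ₐ[O] A, (∀ t, φ (MvPowerSeries.X t) = coG r s g p q ρ t) →
        ∀ i, φ (f i) = 0

theorem outG_of_out [Algebra O F] {r : G →* M2 F} {s : F → O} {d : G → O} (h : Out r s d) :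
    OutG r s d 6 := by
  obtain ⟨g, p, q, f, h1, h2, h3, h4⟩ := h
  exact ⟨Fin 7, Unit, inferInstance, inferInstance, g, p, q, fun _ => f, by simp, fun _ => h1,
    h2, h3, fun A _ _ _ ρ hρ => ⟨(h4 A ρ hρ).1, fun φ hφ _ => (h4 A ρ hρ).2 φ hφ⟩⟩

/-- the block at two, all cases -/
def Two2 : Prop :=
  ∀ (F O : Type) [Field F] [Finite F] [CharP F 2] [CommRing O] [IsLocalRing O]
    [IsNoetherianRing O] [IsAdicComplete (maximalIdeal O) O] [Algebra O F]
    (r : Gal(AlgebraicClosure ℚ_[2] / ℚ_[2]) →* M2 F) (s : F → O)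
    (d : Gal(AlgebraicClosure ℚ_[2] / ℚ_[2]) → O), IsLocallyConstant r →
    (∀ x, (r x 0 1 = 0 ∧ r x 1 0 = 0) ∨ (r x 0 0 = 0 ∧ r x 1 1 = 0)) → (∀ x, (r x).det = 1) →
    (∀ x, algebraMap O F (s x) = x) → (∀ x, algebraMap O F (d x) = 1) → OutG r s d 6

/-- the block at infinity -/
def Inf2 : Prop :=
  ∀ (G F O : Type) [Group G] [TopologicalSpace G] [Field F] [CharP F 2] [CommRing O]
    [IsLocalRing O] [Algebra O F] (r : G →* M2 F) (s : F → O) (d : G → O) (c : G),
    (∀ x, x = 1 ∨ x = c) → c * c = 1 → (r c).det = 1 → d c = -1 →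
    (∀ x, algebraMap O F (s x) = x) → OutG r s d 2

end Vale.Agent.P022D.Loc2
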