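import Vale.Agent.P022D.CA.Blk2
import Vale.Agent.P022D.L2.All

/-!
# P022: the block at two in the residually unipotent case, in the coordinates of the entries
-/

open IsLocalRing MvPowerSeries Filter

noncomputable section

namespace Vale.Agent.P022D.Loc2

open L2 CA

/-- the universal matrices around `B i` -/
def uni {R : Type} [CommRing R] (B : Fin 3 → Matrix (Fin 2) (Fin 2) R) (i : Fin 3) :
    Matrix (Fin 2) (Fin 2) (MvPowerSeries T2 R) :=
  Matrix.of fun p q => C (B i p q) + X (i, p, q)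

/-- the conjugated universal matrices -/
def cu {R : Type} [CommRing R] (P Q : Matrix (Fin 2) (Fin 2) R)
    (B : Fin 3 → Matrix (Fin 2) (Fin 2) R) (i : Fin 3) :
    Matrix (Fin 2) (Fin 2) (MvPowerSeries T2 R) :=
  Q.map C * uni B i * P.map C

/-- the six equations -/
def eqc {R : Type} [CommRing R] (B : Fin 3 → Matrix (Fin 2) (Fin 2) R) (δ : Fin 3 → R)
    (Z : Matrix (Fin 2) (Fin 2) (MvPowerSeries T2 R)) : Fin 3 ⊕ Fin 3 → MvPowerSeries T2 R
  | Sum.inl i => (uni B i).det - C (δ i)
  | Sum.inr k => ![Z 0 0 - 1, Z 0 1, Z 1 0] k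

/-- `Z` is the value of the relation -/
def IsZc {R : Type} [CommRing R] [IsLocalRing R] (U : Ultrafilter Wd)
    (P Q : Matrix (Fin 2) (Fin 2) R) (B : Fin 3 → Matrix (Fin 2) (Fin 2) R)
    (Z : Matrix (Fin 2) (Fin 2) (MvPowerSeries T2 R)) : Prop :=
  ∀ p q, Lim (maximalIdeal (MvPowerSeries T2 R)) U (fun w => ev (cu P Q B) w p q) (Z p q)

theorem exists_isZc {O : Type} [CommRing O] [IsLocalRing O] [IsNoetherianRing O]
    [hO : IsAdicComplete (maximalIdeal O) O] [Finite (ResidueField O)] (U : Ultrafilter Wd)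
    (P Q : Matrix (Fin 2) (Fin 2) O) (B : Fin 3 → Matrix (Fin 2) (Fin 2) O) :
    ∃ Z, IsZc U P Q B Z := by
  have h1 := Cpl.isAdicCompleteV (σ := T2) hO
  have h2 := Cpl.finite_residue (σ := T2) (V := O)
  have h3 := cpt (MvPowerSeries T2 O)
  choose Z hZ using fun p q : Fin 2 => h3 U (fun w => ev (cu P Q B) w p q)
  exact ⟨Matrix.of Z, hZ⟩

section map

variable {R S : Type} [CommRing R] [CommRing S] (ψ : R →+* S)

theorem map_uni (B : Fin 3 → Matrix (Fin 2) (Fin 2) R) (i : Fin 3) :
    (uni B i).map (MvPowerSeries.map ψ) = uni (fun i => (B i).map ψ) i := by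
  ext p q : 2
  simp [uni]

theorem map_cst (P : Matrix (Fin 2) (Fin 2) R) :
    (P.map (C (σ := T2))).map (MvPowerSeries.map ψ) = (P.map ψ).map C := by
  ext p q : 2
  simp

theorem map_cu (P Q : Matrix (Fin 2) (Fin 2) R) (B : Fin 3 → Matrix (Fin 2) (Fin 2) R)
    (i : Fin 3) : (cu P Q B i).map (MvPowerSeries.map ψ) =
      cu (P.map ψ) (Q.map ψ) (fun i => (B i).map ψ) i := by
  rw [cu, cu, Matrix.map_mul, Matrix.map_mul, map_uni, map_cst, map_cst]

theorem IsZc.map [IsLocalRing R] [IsLocalRing S]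
    (hψ : ∀ x ∈ maximalIdeal R, ψ x ∈ maximalIdeal S) {U : Ultrafilter Wd}
    {P Q : Matrix (Fin 2) (Fin 2) R} {B : Fin 3 → Matrix (Fin 2) (Fin 2) R}
    {Z : Matrix (Fin 2) (Fin 2) (MvPowerSeries T2 R)} (h : IsZc U P Q B Z) :
    IsZc U (P.map ψ) (Q.map ψ) (fun i => (B i).map ψ) (Z.map (MvPowerSeries.map ψ)) := by
  intro p q
  have h1 := Pt.lmap (φ := MvPowerSeries.map (σ := T2) ψ)
    (n := maximalIdeal (MvPowerSeries T2 S)) (fun x hx => by
      rw [Cpl.mem_max_iff] at hx ⊢
      rw [constantCoeff_map]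
      exact hψ _ hx) (h p q)
  refine Pt.lcongr h1 (fun w => ?_) rfl
  have h2 := Pt.ev_map (φ := MvPowerSeries.map (σ := T2) ψ) (cu P Q B) w
  simp only [map_cu] at h2
  rw [← h2]
  rfl

theorem map_eqc (B : Fin 3 → Matrix (Fin 2) (Fin 2) R) (δ : Fin 3 → R)
    (Z : Matrix (Fin 2) (Fin 2) (MvPowerSeries T2 R)) (i : Fin 3 ⊕ Fin 3) :
    MvPowerSeries.map ψ (eqc B δ Z i) =
      eqc (fun i => (B i).map ψ) (fun i => ψ (δ i)) (Z.map (MvPowerSeries.map ψ)) i := by
  rcases i with i | k
  · simp only [eqc]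
    rw [map_sub, RingHom.map_det, map_C, RingHom.mapMatrix_apply, map_uni]
  · fin_cases k <;> simp [eqc]

end map

theorem cu_apply {R : Type} [CommRing R] (P Q : Matrix (Fin 2) (Fin 2) R)
    (B : Fin 3 → Matrix (Fin 2) (Fin 2) R) (i : Fin 3) (p q : Fin 2) :
    cu P Q B i p q = C ((Q * B i * P) p q) + ∑ a, ∑ b, C (Q p a * P b q) * X (i, a, b) := by
  simp only [cu, uni, Matrix.mul_apply, Fin.sum_univ_two, Matrix.map_apply, Matrix.of_apply,
    map_add, map_mul]
  ring

theorem X_eq {R : Type} [CommRing R] {P Q : Matrix (Fin 2) (Fin 2) R} (hPQ : P * Q = 1)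
    (B : Fin 3 → Matrix (Fin 2) (Fin 2) R) (i : Fin 3) (a b : Fin 2) :
    (X (i, a, b) : MvPowerSeries T2 R) =
      ∑ p, ∑ q, C (P a p * Q q b) * cu P Q B i p q - C (B i a b) := by
  have h1 : P.map C * cu P Q B i * Q.map C = uni B i := by
    have h2 : P.map (C (σ := T2)) * Q.map C = 1 := by
      rw [← Matrix.map_mul, hPQ, Matrix.map_one _ (map_zero _) (map_one _)]
    calc _ = (P.map C * Q.map C) * uni B i * (P.map C * Q.map C) := by
          simp only [cu, Matrix.mul_assoc]
      _ = _ := by rw [h2, one_mul, mul_one]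
  have h3 := congrFun (congrFun h1 a) b
  simp only [uni, Matrix.mul_apply, Fin.sum_univ_two, Matrix.map_apply, Matrix.of_apply] at h3
  simp only [Fin.sum_univ_two, map_mul]
  linear_combination -h3

theorem det_cu {R : Type} [CommRing R] {P Q : Matrix (Fin 2) (Fin 2) R} (hPQ : P * Q = 1)
    (B : Fin 3 → Matrix (Fin 2) (Fin 2) R) (i : Fin 3) : (cu P Q B i).det = (uni B i).det := by
  have h2 : P.map (C (σ := T2)) * Q.map C = 1 := by
    rw [← Matrix.map_mul, hPQ, Matrix.map_one _ (map_zero _) (map_one _)]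
  have h3 := congrArg Matrix.det h2
  rw [Matrix.det_mul, Matrix.det_one] at h3
  rw [cu, Matrix.det_mul, Matrix.det_mul]
  linear_combination (uni B i).det * h3

variable {F : Type} [Field F] [CharP F 2] {U : Ultrafilter Wd} {P Q : Matrix (Fin 2) (Fin 2) F}
  {B : Fin 3 → Matrix (Fin 2) (Fin 2) F} {n : Fin 3 → F}
  {Z : Matrix (Fin 2) (Fin 2) (MvPowerSeries T2 F)}

theorem const_Zc (hU : Rel U) (hB : ∀ i, Q * B i * P = !![1, n i; 0, 1]) (h : IsZc U P Q B Z)
    (p q : Fin 2) : constantCoeff (Z p q) = (1 : Matrix (Fin 2) (Fin 2) F) p q := by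
  obtain ⟨w, hw1, hw2⟩ := ((h p q 1).and hU.mag).exists
  rw [pow_one, Cpl.mem_max_iff, map_sub, maximalIdeal_eq_bot, Ideal.mem_bot, sub_eq_zero] at hw1
  rw [← hw1]
  have h2 := Pt.ev_map (φ := constantCoeff (σ := T2) (R := F)) (cu P Q B) w
  have h3 : ∀ i, (cu P Q B i).map (constantCoeff (σ := T2) (R := F)) = !![1, n i; 0, 1] := by
    intro i
    ext p q
    rw [Matrix.map_apply, cu_apply, hB]
    simp
  simp only [h3, ev_uni, hw2.1, map_zero, zero_mul, Finset.sum_const_zero] at h2
  have h4 := congrFun (congrFun h2 p) q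
  rw [Matrix.map_apply] at h4
  rw [h4, Matrix.one_fin_two]

theorem const_eqc (hU : Rel U) (hd : ∀ i, (B i).det = 1)
    (hB : ∀ i, Q * B i * P = !![1, n i; 0, 1]) (h : IsZc U P Q B Z) (i : Fin 3 ⊕ Fin 3) :
    constantCoeff (eqc B (fun _ => 1) Z i) = 0 := by
  rcases i with i | k
  · have h1 := hd i
    rw [Matrix.det_fin_two] at h1
    simp [eqc, uni, Matrix.det_fin_two, h1]
  · fin_cases k <;> simp [eqc, const_Zc hU hB h]

/-- the derivations dual to the conjugated coordinates -/
def dd (P Q : Matrix (Fin 2) (Fin 2) F) (i : Fin 3) (p q : Fin 2) :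
    MvPowerSeries T2 F →+ MvPowerSeries T2 F where
  toFun x := ∑ a, ∑ b, C (P a p * Q q b) * pderiv F (i, a, b) x
  map_zero' := by simp
  map_add' x y := by simp only [map_add, mul_add, Finset.sum_add_distrib]

omit [CharP F 2] in
theorem dd_apply (i : Fin 3) (p q : Fin 2) (x : MvPowerSeries T2 F) :
    dd P Q i p q x = ∑ a, ∑ b, C (P a p * Q q b) * pderiv F (i, a, b) x := rfl

omit [CharP F 2] in
theorem dd_cu (hQP : Q * P = 1) (i : Fin 3) (p q : Fin 2) (i' : Fin 3) (p' q' : Fin 2) :
    dd P Q i p q (cu P Q B i' p' q') = if i = i' ∧ p = p' ∧ q = q' then 1 else 0 := by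
  classical
  have h1 : ∀ a b, pderiv F (i, a, b) (cu P Q B i' p' q') =
      if i = i' then C (Q p' a * P b q') else 0 := by
    intro a b
    rw [cu_apply, map_add, pderiv_C, zero_add]
    simp only [map_sum, Derivation.leibniz, pderiv_C, mul_zero, add_zero, smul_eq_mul]
    split_ifs with hi
    · subst hi
      rw [Finset.sum_eq_single a, Finset.sum_eq_single b, pderiv_X_self, mul_one]
      · intro b' _ hb
        rw [pderiv_X_of_ne (by simp [hb]), mul_zero]
      · simp
      · intro a' _ ha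
        refine Finset.sum_eq_zero fun b' _ => ?_
        rw [pderiv_X_of_ne (by simp [ha]), mul_zero]
      · simp
    · refine Finset.sum_eq_zero fun a' _ => Finset.sum_eq_zero fun b' _ => ?_
      rw [pderiv_X_of_ne (by simp [Ne.symm hi]), mul_zero]
  rw [dd_apply]
  simp only [h1]
  by_cases hi : i = i'
  · have h2 : ∑ a, ∑ b, (C (P a p * Q q b) : MvPowerSeries T2 F) * C (Q p' a * P b q') =
        C ((Q * P) p' p * (Q * P) q q') := by
      simp only [Matrix.mul_apply, Fin.sum_univ_two, map_add, map_mul]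
      ring
    simp only [hi, if_true, true_and]
    rw [h2, hQP, Matrix.one_apply, Matrix.one_apply]
    by_cases hp : p = p' <;> by_cases hq : q = q' <;> simp [hp, hq, Ne.symm]
  · simp [hi]

theorem blkc [Finite F] (hU : Rel U) (hPQ : P * Q = 1)
    (hB : ∀ i, Q * B i * P = !![1, n i; 0, 1]) (h : IsZc U P Q B Z) :
    BlkPt (eqc B (fun _ => 1) Z) := by
  classical
  intro A _ _ _ _ _ φ hres hX hloc hf K _ _ _
  have hA : CharP A 2 := (RingHom.charP_iff_charP (φ.comp C) 2).1 inferInstance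
  have hK : CharP K 2 := charP_of_injective_algebraMap (IsFractionRing.injective A K) 2
  have hfin : Finite (ResidueField A) := by
    refine Finite.of_surjective (fun a : F => residue A (φ (C a))) fun y => ?_
    obtain ⟨b, rfl⟩ := residue_surjective y
    obtain ⟨a, ha⟩ := hres b
    exact ⟨a, (Ideal.Quotient.eq.2 ha).symm⟩
  have hdet : ∀ i, φ (cu P Q B i).det = 1 := by
    intro i
    have h1 := hf (Sum.inl i)
    simp only [eqc, map_sub, map_one] at h1
    rw [det_cu hPQ]
    exact sub_eq_zero.1 h1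
  have h00 : φ (Z 0 0) = 1 := by
    have h1 := hf (Sum.inr 0)
    simp only [eqc, Matrix.cons_val_zero, map_sub, map_one] at h1
    exact sub_eq_zero.1 h1
  have hm : ∀ i p q, φ (cu P Q B i p q) -
      φ (C ((!![1, n i; 0, 1] : Matrix (Fin 2) (Fin 2) F) p q)) ∈ maximalIdeal A := by
    intro i p q
    rw [cu_apply, hB, map_add, add_sub_cancel_left, map_sum]
    refine sum_mem fun a _ => ?_
    rw [map_sum]
    refine sum_mem fun b _ => ?_
    rw [map_mul]
    exact Ideal.mul_mem_left _ _ (hX _)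
  have hpt := pt U hU (MvPowerSeries T2 F) (cu P Q B) Z h (dd P Q)
    (fun i p q x y => by
      simp only [dd_apply, Derivation.leibniz, smul_eq_mul, Fin.sum_univ_two]
      ring)
    (dd_cu (mul_eq_one_comm.1 hPQ)) A (cpt A) φ hloc
    (fun i => by
      refine ⟨?_, ?_, ?_, ?_⟩
      · rw [← RingHom.mapMatrix_apply, ← RingHom.map_det]
        exact hdet i
      · simpa using hm i 0 0
      · simpa using hm i 1 0
      · simpa using hm i 1 1)
    h00 (hf (Sum.inr 1)) (hf (Sum.inr 2)) K
  rcases hpt with hJ | ⟨u, hu⟩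
  · left
    intro l hl
    obtain ⟨h1, h2⟩ := hJ (fun i => l (Sum.inl i)) (fun k => l (Sum.inr k)) (fun i p q => by
      have h3 : ∀ a b, ∑ i', l (Sum.inl i') *
          algebraMap A K (φ (pderiv F (i, a, b) (cu P Q B i').det)) +
          (l (Sum.inr 0) * algebraMap A K (φ (pderiv F (i, a, b) (Z 0 0))) +
            l (Sum.inr 1) * algebraMap A K (φ (pderiv F (i, a, b) (Z 0 1))) +
            l (Sum.inr 2) * algebraMap A K (φ (pderiv F (i, a, b) (Z 1 0)))) = 0 := by
        intro a b
        have h3 := hl (i, a, b)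
        rw [Fintype.sum_sum_type, Fin.sum_univ_three (fun k => l (Sum.inr k) * _)] at h3
        simp only [eqc, map_sub, pderiv_C, sub_zero, Matrix.cons_val_zero, Matrix.cons_val_one,
          Matrix.cons_val, pderiv_one] at h3
        simp only [det_cu hPQ]
        exact h3
      simp only [dd_apply, Fin.sum_univ_two, Fin.sum_univ_three, map_add, map_mul] at h3 ⊢
      linear_combination
        algebraMap A K (φ (C (P 0 p))) * algebraMap A K (φ (C (Q q 0))) * h3 0 0 +
        algebraMap A K (φ (C (P 0 p))) * algebraMap A K (φ (C (Q q 1))) * h3 0 1 +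
        algebraMap A K (φ (C (P 1 p))) * algebraMap A K (φ (C (Q q 0))) * h3 1 0 +
        algebraMap A K (φ (C (P 1 p))) * algebraMap A K (φ (C (Q q 1))) * h3 1 1)
    rintro (i | k)
    · exact congrFun h1 i
    · exact congrFun h2 k
  · right
    refine ⟨Finset.univ.image u, ?_, fun D hD t => ?_⟩
    · have h1 : (Finset.univ.image u).card ≤ 4 := Finset.card_image_le.trans (by simp)
      have h2 : Fintype.card (Fin 3 ⊕ Fin 3) = 6 := by simp
      have h3 : Fintype.card T2 = 12 := by simp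
      omega
    · obtain ⟨i, a, b⟩ := t
      have h1 := fun p q => der_sq u D
        (fun j => hD _ (Finset.mem_image_of_mem u (Finset.mem_univ j))) (hu i p q)
      have h2 : ∀ y : F, D (algebraMap A K (φ (C y))) = 0 := by
        intro y
        obtain ⟨z, rfl⟩ := (frobeniusEquiv F 2).surjective y
        have h3 : (2 : K) = 0 := CharTwo.two_eq_zero
        rw [frobeniusEquiv_apply, frobenius_def, map_pow, map_pow, map_pow,
          Derivation.leibniz_pow, nsmul_eq_mul, Nat.cast_ofNat, h3, zero_mul]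
      rw [X_eq hPQ B i a b]
      simp only [Fin.sum_univ_two, map_add, map_sub, RingHom.map_mul φ,
        RingHom.map_mul (algebraMap A K), Derivation.leibniz, h1, h2, smul_zero, add_zero,
        sub_zero]

end Vale.Agent.P022D.Loc2
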