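import Vale.Agent.P022D.Loc2.Defs
import Vale.Agent.P022D.CA.BlkInf
import Vale.Agent.P022D.CA.Cpl

/-!
# P022: the block at infinity
-/

noncomputable section

namespace Vale.Agent.P022D.Loc2

open IsLocalRing L2b MvPowerSeries

theorem mem_max_of_red {O F : Type} [CommRing O] [IsLocalRing O] [Field F] (ψ : O →+* F) {a : O}
    (h : ψ a = 0) : a ∈ maximalIdeal O := by
  rw [mem_maximalIdeal, mem_nonunits_iff]
  intro hu
  exact (hu.map ψ).ne_zero h

theorem tr_zero {A : Type} [CommRing A] {M : M2 A} (h1 : M * M = 1) (h2 : M.det = -1) :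
    M 1 1 = -M 0 0 := by
  have e00 := congrFun (congrFun h1 0) 0
  have e01 := congrFun (congrFun h1 0) 1
  have e11 := congrFun (congrFun h1 1) 1
  simp only [Matrix.mul_apply, Fin.sum_univ_two, Matrix.one_apply_eq, ne_eq, zero_ne_one,
    not_false_eq_true, Matrix.one_apply_ne] at e00 e01 e11
  rw [Matrix.det_fin_two] at h2
  linear_combination (-(M 0 0 + M 1 1)) * e00 + M 1 0 * e01
    + M 0 0 * (e00 + h2)

theorem inf2 : Inf2 := by
  intro G F O _ _ _ _ _ _ _ r s d c hG hc hr hd hs
  have h2 : (2 : F) = 0 := CharTwo.two_eq_zero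
  have hrc : r c * r c = 1 := by rw [← map_mul, hc, map_one]
  have h11 : r c 1 1 = -r c 0 0 := tr_zero hrc (by rw [hr]; linear_combination h2)
  have hq : r c 0 0 ^ 2 + r c 0 1 * r c 1 0 = 1 := by
    have e00 := congrFun (congrFun hrc 0) 0
    simp only [Matrix.mul_apply, Fin.sum_univ_two, Matrix.one_apply_eq] at e00
    linear_combination e00
  refine ⟨Fin 3, Unit, inferInstance, inferInstance, fun _ => c, ![0, 0, 1], ![0, 1, 0],
    CA.eqInf (s (r c 0 0)) (s (r c 0 1)) (s (r c 1 0)), by simp, fun i => ?_, ?_, ?_, ?_⟩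
  · rw [CA.Cpl.mem_max_iff, CA.const_eqInf]
    refine mem_max_of_red (algebraMap O F) ?_
    simp only [map_sub, map_add, map_mul, map_pow, map_one, hs, hq, sub_self]
  · have h3 : (fun i => MvPowerSeries.map (algebraMap O F)
        (CA.eqInf (s (r c 0 0)) (s (r c 0 1)) (s (r c 1 0)) i)) =
        CA.eqInf (r c 0 0) (r c 0 1) (r c 1 0) := by
      funext i
      rw [CA.map_eqInf, hs, hs, hs]
    rw [h3]
    exact CA.blkInf hq
  · intro z hz h0 x
    have h1 : z 1 = 0 := by
      have h3 := hz.mul 1 1
      rw [mul_one, map_one, mul_one, one_mul] at h3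
      exact left_eq_add.1 h3
    rcases hG x with rfl | rfl
    · exact h1
    · have a0 : z x 0 0 = 0 := h0 0
      have a1 : z x 0 1 = 0 := h0 1
      have a2 : z x 1 0 = 0 := h0 2
      have h3 := hz.mul x x
      rw [hc, h1] at h3
      have e01 := congrFun (congrFun h3 0) 1
      have e10 := congrFun (congrFun h3 1) 0
      have e := hz.det x
      simp only [Matrix.add_apply, Matrix.mul_apply, Fin.sum_univ_two, a0, a1, a2, pd,
        Matrix.zero_apply] at e01 e10 e
      have a3 : z x 1 1 = 0 := by
        linear_combination (-z x 1 1) * hq + r x 0 0 * e - r x 1 0 * e01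
      ext i j
      fin_cases i <;> fin_cases j
      · exact a0
      · exact a1
      · exact a2
      · exact a3
  · intro A _ _ _ ρ hρ
    have hρc : ρ c * ρ c = 1 := by rw [← map_mul, hc, map_one]
    have hdc : (ρ c).det = -1 := by rw [hρ.det, hd, map_neg, map_one]
    have ht := tr_zero hρc hdc
    constructor
    · have key : ∀ t : Fin 3, ρ c ((![0, 0, 1] : Fin 3 → Fin 2) t) ((![0, 1, 0] : Fin 3 → Fin 2) t) ∈
          Algebra.adjoin O (Set.range
            (coG r s (fun _ : Fin 3 => c) ![0, 0, 1] ![0, 1, 0] ρ)) := fun t => by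
        have h3 := add_mem (Algebra.subset_adjoin (R := O) (Set.mem_range_self
          (f := coG r s (fun _ : Fin 3 => c) ![0, 0, 1] ![0, 1, 0] ρ) t))
          (Subalgebra.algebraMap_mem _ (s (r c (![0, 0, 1] t) (![0, 1, 0] t))))
        rwa [coG, sub_add_cancel] at h3
      intro x i j
      rcases hG x with rfl | rfl
      · rw [map_one, Matrix.one_apply]
        split_ifs
        · exact one_mem _
        · exact zero_mem _
      · fin_cases i <;> fin_cases j
        · exact key 0
        · exact key 1
        · exact key 2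
        · exact ht ▸ neg_mem (key 0)
    · intro φ hφ i
      have e0 : φ (C (s (r c 0 0)) + X 0) = ρ c 0 0 := by
        rw [map_add, hφ 0]
        exact (congrArg (· + _) (φ.commutes _)).trans (add_sub_cancel _ _)
      have e1 : φ (C (s (r c 0 1)) + X 1) = ρ c 0 1 := by
        rw [map_add, hφ 1]
        exact (congrArg (· + _) (φ.commutes _)).trans (add_sub_cancel _ _)
      have e2 : φ (C (s (r c 1 0)) + X 2) = ρ c 1 0 := by
        rw [map_add, hφ 2]
        exact (congrArg (· + _) (φ.commutes _)).trans (add_sub_cancel _ _)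
      have e00 := congrFun (congrFun hρc 0) 0
      simp only [Matrix.mul_apply, Fin.sum_univ_two, Matrix.one_apply_eq] at e00
      rw [CA.eqInf, map_sub, map_add, map_mul, map_pow, e0, e1, e2, map_one]
      linear_combination e00

end Vale.Agent.P022D.Loc2
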