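import Vale.Agent.P022D.Loc2.BlkC
import Vale.Agent.P022D.Loc2.Inf
import Vale.Agent.P022D.L2b.Ps
import Vale.Agent.P022D.L2.Ar
import Vale.Agent.P022D.L2.Rel

/-!
# P022: the block at two
-/

open IsLocalRing MvPowerSeries Filter

noncomputable section

namespace Vale.Agent.P022D.Loc2

open L2 CA L2b

/-- conjugation -/
def cj {A : Type} [CommRing A] (P Q : M2 A) (hPQ : P * Q = 1) : M2 A →* M2 A where
  toFun M := Q * M * P
  map_one' := by rw [mul_one]; exact mul_eq_one_comm.1 hPQ
  map_mul' M N := by
    calc Q * (M * N) * P = Q * M * (P * Q) * N * P := by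
          rw [hPQ]; simp only [Matrix.mul_assoc, mul_one]
      _ = _ := by simp only [Matrix.mul_assoc]

theorem cj_one {A : Type} [CommRing A] {P Q : M2 A} (hPQ : P * Q = 1) {M : M2 A}
    (h : cj P Q hPQ M = 1) : M = 1 := by
  have h1 : Q * M * P = 1 := h
  calc M = (P * Q) * M * (P * Q) := by rw [hPQ, one_mul, mul_one]
    _ = P * (Q * M * P) * Q := by simp only [Matrix.mul_assoc]
    _ = 1 := by rw [h1, mul_one, hPQ]

theorem ev_hom {M N : Type} [Monoid M] [Monoid N] (f : M →* N) (X : Fin 3 → M) (w : Wd) :
    f (ev X w) = ev (fun i => f (X i)) w := by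
  induction w with
  | nil => exact map_one f
  | cons i w ih => rw [Pt.ev_cons, Pt.ev_cons, map_mul, ih]

theorem ev_mem {O A : Type} [CommRing O] [CommRing A] [Algebra O A] (S : Subalgebra O A)
    (X : Fin 3 → M2 A) (hX : ∀ i p q, X i p q ∈ S) (w : Wd) : ∀ p q, ev X w p q ∈ S := by
  induction w with
  | nil =>
    intro p q
    change (1 : M2 A) p q ∈ S
    rw [Matrix.one_apply]
    split_ifs
    · exact one_mem _
    · exact zero_mem _
  | cons i w ih =>
    intro p q
    rw [Pt.ev_cons, Matrix.mul_apply]
    exact sum_mem fun a _ => mul_mem (hX _ _ _) (ih _ _)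

variable {G F : Type} [Group G] [TopologicalSpace G] [Field F] [CharP F 2]

theorem tn_uni {g : Fin 3 → G} {U : Ultrafilter Wd} (hH : Holds g U) (r : G →* M2 F)
    (hr : IsLocallyConstant r) (h2 : ∀ x, r (x * x) = 1) :
    TnG r (fun t : T2 => g t.1) (fun t => t.2.1) (fun t => t.2.2) := by
  intro c hc h0 x
  have h1 : c 1 = 0 := by
    have h3 := hc.mul 1 1
    rw [mul_one, map_one, mul_one, one_mul] at h3
    exact left_eq_add.1 h3
  let ρ : G →* TrivSqZeroExt (M2 F) (M2 F) :=
    { toFun := fun x => (r x, c x)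
      map_one' := by rw [map_one, h1]; rfl
      map_mul' := fun x y => by
        refine TrivSqZeroExt.ext (map_mul r x y) ?_
        change c (x * y) = r x * c y + c x * r y
        rw [hc.mul, add_comm] }
  have hT : Two ρ := by
    constructor
    · have h3 : {x | ρ x = 1} = r ⁻¹' {1} ∩ c ⁻¹' {0} := by
        ext x
        exact Prod.ext_iff
      rw [h3]
      exact (hr _).inter (hc.lc _)
    · intro x
      refine ⟨2, ?_⟩
      have h3 : ρ x ^ 2 ^ 2 = ρ (x * x * (x * x)) := by
        rw [map_mul, map_mul, show 2 ^ 2 = 4 from rfl, pow_succ, pow_succ, pow_two, mul_assoc]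
      rw [h3]
      refine TrivSqZeroExt.ext ?_ ?_
      · change r (x * x * (x * x)) = 1
        rw [map_mul, h2, mul_one]
      · change c (x * x * (x * x)) = 0
        rw [hc.mul, h2, mul_one, one_mul]
        ext i j
        exact CharTwo.add_self_eq_zero _
  obtain ⟨w, hw⟩ := (hH _ ρ hT).2 x
  have h4 : ∀ w : Wd, (ev (fun i => ρ (g i)) w).snd = 0 := by
    intro w
    induction w with
    | nil => rfl
    | cons i w ih =>
      have h5 : (ρ (g i)).snd = 0 := by
        ext p q
        exact h0 (i, p, q)
      rw [Pt.ev_cons, TrivSqZeroExt.snd_mul, ih, h5, smul_zero, smul_zero, add_zero]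
  exact (congrArg TrivSqZeroExt.snd hw).trans (h4 w)

variable {O : Type} [CommRing O] [IsLocalRing O] [Algebra O F]

omit [CharP F 2] in
theorem red_zero {s : F → O} (hs : ∀ x, algebraMap O F (s x) = x) {a : O}
    (ha : a ∈ maximalIdeal O) : algebraMap O F a = 0 := by
  have h := Ideal.comap_isMaximal_of_surjective (algebraMap O F) (fun x => ⟨s x, hs x⟩)
    (K := ⊥) (H := Ideal.bot_isMaximal)
  rw [← eq_maximalIdeal h] at ha
  exact ha

theorem outU [Finite F] [IsNoetherianRing O] [IsAdicComplete (maximalIdeal O) O]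
    {g : Fin 3 → G} {U : Ultrafilter Wd} (hU : Rel U) (hH : Holds g U) (r : G →* M2 F)
    (s : F → O) (d : G → O) (hr : IsLocallyConstant r) (hdet : ∀ x, (r x).det = 1)
    (hs : ∀ x, algebraMap O F (s x) = x) (hd : ∀ x, algebraMap O F (d x) = 1)
    (P Q : M2 O) (hPQ : P * Q = 1)
    (hu : ∀ x, ∃ n, Q.map (algebraMap O F) * r x * P.map (algebraMap O F) = !![1, n; 0, 1]) :
    OutG r s d 6 := by
  have hfin : Finite (ResidueField O) := by
    refine Finite.of_surjective (fun a : F => residue O (s a)) fun y => ?_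
    obtain ⟨b, rfl⟩ := residue_surjective y
    refine ⟨algebraMap O F b, Ideal.Quotient.eq.2 (mem_max_of_red (algebraMap O F) ?_)⟩
    rw [map_sub, hs, sub_self]
  have hPQ' : P.map (algebraMap O F) * Q.map (algebraMap O F) = 1 := by
    rw [← Matrix.map_mul, hPQ, Matrix.map_one _ (map_zero _) (map_one _)]
  choose n hn using hu
  let B : Fin 3 → M2 O := fun i => (r (g i)).map s
  have hB : (fun i => (B i).map (algebraMap O F)) = fun i => r (g i) := by
    funext i
    ext p q
    exact hs _
  obtain ⟨Z, hZ⟩ := exists_isZc U P Q B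
  have hZ' := hZ.map (algebraMap O F) (fun x hx => by rw [red_zero hs hx]; exact zero_mem _)
  rw [hB] at hZ'
  have he : (fun i => MvPowerSeries.map (algebraMap O F) (eqc B (fun i => d (g i)) Z i)) =
      eqc (fun i => r (g i)) (fun _ => 1) (Z.map (MvPowerSeries.map (algebraMap O F))) := by
    funext i
    rw [map_eqc, hB, funext fun i => hd (g i)]
  refine ⟨T2, Fin 3 ⊕ Fin 3, inferInstance, inferInstance, fun t => g t.1, fun t => t.2.1,
    fun t => t.2.2, eqc B (fun i => d (g i)) Z, by simp, fun i => ?_,
    he ▸ blkc hU hPQ' (fun i => hn (g i)) hZ', tn_uni hH r hr fun x => ?_, ?_⟩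
  · rw [Cpl.mem_max_iff]
    refine mem_max_of_red (algebraMap O F) ?_
    rw [← constantCoeff_map, congrFun he i]
    exact const_eqc hU (fun i => hdet _) (fun i => hn (g i)) hZ' i
  · refine cj_one hPQ' ?_
    rw [map_mul, map_mul]
    change (_ * r x * _) * (_ * r x * _) = 1
    rw [hn x]
    ext i j
    fin_cases i <;> fin_cases j <;> simp [CharTwo.add_self_eq_zero]
  · intro A _ _ _ ρ hρ
    have hPQA : P.map (algebraMap O A) * Q.map (algebraMap O A) = 1 := by
      rw [← Matrix.map_mul, hPQ, Matrix.map_one _ (map_zero _) (map_one _)]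
    obtain ⟨N, hN⟩ : IsNilpotent (nilradical A) := IsNoetherianRing.isNilpotent_nilradical A
    have hm : ∀ a : O, algebraMap O F a = 0 → algebraMap O A a ∈ nilradical A := fun a ha =>
      hρ.nil a (mem_max_of_red (algebraMap O F) ha)
    have h2 : (2 : A) ∈ nilradical A := by
      have h3 := hm 2 (by rw [map_ofNat]; exact CharTwo.two_eq_zero)
      rwa [map_ofNat] at h3
    have hc : ∀ x p q, cj _ _ hPQA (ρ x) p q -
        algebraMap O A ((!![1, s (n x); 0, 1] : M2 O) p q) ∈ nilradical A := by
      intro x p q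
      have h3 : algebraMap O F ((Q * (r x).map s * P) p q -
          (!![1, s (n x); 0, 1] : M2 O) p q) = 0 := by
        have h4 : ((r x).map s).map (algebraMap O F) = r x := by
          ext a b
          exact hs _
        have h5 := congrFun (congrFun (hn x) p) q
        rw [← h4, ← Matrix.map_mul, ← Matrix.map_mul, Matrix.map_apply] at h5
        rw [map_sub, h5, sub_eq_zero]
        fin_cases p <;> fin_cases q <;> simp [hs]
      have h6 : cj _ _ hPQA (ρ x) p q - algebraMap O A ((!![1, s (n x); 0, 1] : M2 O) p q) =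
          ∑ a, ∑ b, algebraMap O A (Q p a * P b q) * (ρ x a b - algebraMap O A (s (r x a b))) +
          algebraMap O A ((Q * (r x).map s * P) p q - (!![1, s (n x); 0, 1] : M2 O) p q) := by
        change (_ * ρ x * _ : M2 A) p q - _ = _
        simp only [Matrix.mul_apply, Fin.sum_univ_two, Matrix.map_apply, map_add, map_mul,
          map_sub]
        ring
      rw [h6]
      exact add_mem (sum_mem fun a _ => sum_mem fun b _ =>
        Ideal.mul_mem_left _ _ (hρ.red x a b)) (hm _ h3)
    have hT : Two ρ := by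
      refine ⟨hρ.lc {1}, fun x => ⟨N + 1, cj_one hPQA ?_⟩⟩
      rw [map_pow]
      have h3 := Ev.pw (nilradical A) h2 (cj _ _ hPQA (ρ x)) (by simpa using hc x 0 0)
        (by simpa using hc x 1 0) (by simpa using hc x 1 1) N
      rw [pow_succ (nilradical A), hN, zero_mul] at h3
      rw [← sub_eq_zero]
      ext p q
      exact h3 p q
    obtain ⟨hev, hgen⟩ := hH _ ρ hT
    constructor
    · intro x p q
      obtain ⟨w, hw⟩ := hgen x
      rw [hw]
      refine ev_mem _ _ (fun i p q => ?_) w p q
      have h3 := add_mem (Algebra.subset_adjoin (R := O) (Set.mem_range_self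
        (f := coG r s (fun t : T2 => g t.1) (fun t => t.2.1) (fun t => t.2.2) ρ) (i, p, q)))
        (Subalgebra.algebraMap_mem _ (s (r (g i) p q)))
      rwa [coG, sub_add_cancel] at h3
    · intro φ hφ
      have hC : ∀ a : O, φ (C a) = algebraMap O A a := fun a => φ.commutes a
      have hφm : ∀ x ∈ maximalIdeal (MvPowerSeries T2 O), φ.toRingHom x ∈ nilradical A := by
        intro x hx
        obtain ⟨y, hy⟩ := decomp x
        change φ x ∈ _
        rw [hy, map_add, map_sum, hC]
        refine add_mem (hρ.nil _ ((Cpl.mem_max_iff x).1 hx)) (sum_mem fun t _ => ?_)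
        rw [map_mul, hφ]
        exact Ideal.mul_mem_right _ _ (hρ.red _ _ _)
      have hun : ∀ i, (uni B i).map φ.toRingHom = ρ (g i) := by
        intro i
        ext p q
        change φ (C _ + X (i, p, q)) = _
        rw [map_add, hC, hφ]
        exact add_sub_cancel _ _
      have hcu : ∀ i, (cu P Q B i).map φ.toRingHom = cj _ _ hPQA (ρ (g i)) := by
        intro i
        have h3 : ∀ M : M2 O, (M.map (C (σ := T2))).map φ.toRingHom = M.map (algebraMap O A) :=
          fun M => by
            ext p q
            exact hC _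
        rw [cu, Matrix.map_mul, Matrix.map_mul, hun, h3, h3]
        rfl
      have hZ1 : ∀ p q, φ (Z p q) = (1 : M2 A) p q := by
        intro p q
        obtain ⟨w, hw1, hw2⟩ := ((Pt.lmap hφm (hZ p q) N).and hev).exists
        rw [hN] at hw1
        have h3 := congrFun (congrFun (Pt.ev_map (φ := φ.toRingHom) (cu P Q B) w) p) q
        simp only [hcu] at h3
        rw [← ev_hom, hw2, map_one, Matrix.map_apply] at h3
        rw [← h3]
        exact (sub_eq_zero.1 hw1).symm
      rintro (i | k)
      · change φ.toRingHom ((uni B i).det - C (d (g i))) = 0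
        rw [map_sub, RingHom.map_det, RingHom.mapMatrix_apply, hun, hρ.det]
        exact sub_eq_zero.2 (hC _).symm
      · fin_cases k <;> simp [eqc, hZ1]

theorem two2 (hS : ShellS) (hA : CaseA) (hB : CaseB) : Two2 := by
  intro F O _ _ _ _ _ _ _ _ r s d hr hx hdet hs hd
  by_cases h1 : ∃ x, r x 0 1 = 0 ∧ r x 0 0 ≠ r x 1 1
  · refine outG_of_out (hS _ F O r s d hr hs (fun x => by rw [hd, hdet]) ?_)
    by_cases h2 : ∃ x, r x 0 0 = 0
    · exact hA F r hr hx h2 h1
    · obtain ⟨y, -, hy⟩ := h1
      exact hB F r hr (fun x => (hx x).resolve_right fun h => h2 ⟨x, h.1⟩) ⟨y, hy⟩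
  · push Not at h1
    obtain ⟨g, a, hL⟩ := ar
    obtain ⟨U, hU, hH⟩ := relS _ g a hL
    have h2 : (2 : F) = 0 := CharTwo.two_eq_zero
    have hone : ∀ x, r x 0 1 = 0 → r x 1 0 = 0 → r x = 1 := by
      intro x e1 e2
      have e3 := h1 x e1
      have e4 := hdet x
      rw [Matrix.det_fin_two, e1, ← e3] at e4
      have e5 : r x 0 0 = 1 := by
        have e6 : (r x 0 0 - 1) ^ 2 = 0 := by linear_combination e4 + (1 - r x 0 0) * h2
        exact sub_eq_zero.1 (pow_eq_zero_iff two_ne_zero |>.1 e6)
      ext i j
      fin_cases i <;> fin_cases j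
      · exact e5
      · exact e1
      · exact e2
      · exact e3.symm.trans e5
    by_cases h3 : ∃ y, r y 0 0 = 0 ∧ r y 1 1 = 0
    · obtain ⟨y, y0, y1⟩ := h3
      have e4 := hdet y
      rw [Matrix.det_fin_two, y0] at e4
      have hb : r y 0 1 * r y 1 0 = 1 := by linear_combination -e4 - h2 * 1 + h2 + h2 * 0 - h2
      have hu : IsUnit (s (r y 0 1)) := by
        by_contra hcon
        have e5 := red_zero hs ((mem_maximalIdeal _).2 hcon)
        rw [hs] at e5
        rw [e5, zero_mul] at hb
        exact zero_ne_one hb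
      obtain ⟨γ, hγ⟩ := hu.exists_right_inv
      have hγ' : algebraMap O F γ = r y 1 0 := by
        have e5 := congrArg (algebraMap O F) hγ
        rw [map_mul, hs, map_one] at e5
        linear_combination (-algebraMap O F γ) * hb + r y 1 0 * e5
      refine outU hU hH r s d hr hdet hs hd !![s (r y 0 1), 0; 1, γ] !![γ, 0; -1, s (r y 0 1)]
        ?_ fun x => ?_
      · ext i j
        fin_cases i <;> fin_cases j <;> simp [Matrix.mul_apply, Fin.sum_univ_two, hγ, mul_comm γ]
      · rcases hx x with ⟨e1, e2⟩ | ⟨e1, e2⟩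
        · refine ⟨0, ?_⟩
          rw [hone x e1 e2]
          ext i j
          fin_cases i <;> fin_cases j <;>
            simp [Matrix.mul_apply, Fin.sum_univ_two, hγ', hs, hb, mul_comm (r y 1 0)]
        · have e3 : r (x * y) = 1 := by
            refine hone _ ?_ ?_ <;>
              simp [Matrix.mul_apply, Fin.sum_univ_two, e1, e2, y0, y1]
          rw [map_mul] at e3
          have e5 := congrFun (congrFun e3 0) 0
          have e6 := congrFun (congrFun e3 1) 1
          simp only [Matrix.mul_apply, Fin.sum_univ_two, e1, e2, zero_mul, zero_add, add_zero,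
            Matrix.one_apply_eq] at e5 e6
          have e7 : r x 0 1 = r y 0 1 := by linear_combination r y 0 1 * e5 - r x 0 1 * hb
          have e8 : r x 1 0 = r y 1 0 := by linear_combination r y 1 0 * e6 - r x 1 0 * hb
          refine ⟨r y 1 0 * r y 1 0 * r y 0 1, ?_⟩
          ext i j
          fin_cases i <;> fin_cases j <;>
            simp [Matrix.mul_apply, Fin.sum_univ_two, hγ', hs, e1, e2, e7, e8]
          · linear_combination hb
          · ring
          · linear_combination r y 0 1 * hb
          · linear_combination -hb - h2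
    · refine outU hU hH r s d hr hdet hs hd 1 1 (mul_one _) fun x => ⟨0, ?_⟩
      obtain ⟨e1, e2⟩ := (hx x).resolve_right fun h => h3 ⟨x, h⟩
      rw [hone x e1 e2, Matrix.map_one _ (map_zero _) (map_one _), mul_one, mul_one,
        Matrix.one_fin_two]

end Vale.Agent.P022D.Loc2
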